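import Vale.Agent.P111.Bdl.B1

namespace Vale.Agent.Results.P111.Main

open Vale.Agent.P111

/-- The cotype-cotype conjecture holds under a one-sided form of property (α).

Let `X` be a Banach space with the bounded approximation property.
1. If `X` and `X*` satisfy the one-sided inequality with exponents `s, t` and `s + t < 1/2`,
   then `X` is K-convex.
2. If `X` has cotype `q` and `X*` has cotype `r`, then `X` is K-convex as soon as `X` has the
   exponent `s < 1/r`, or `X*` has the exponent `t < 1/q`, or `X` or `X*` has property (α).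
3. For every normed space `Y`, cotype `q` gives the exponent `1/2 - 1/q`, property (α) gives
   the exponent `0`. -/
theorem result (X : Type*) [NormedAddCommGroup X] [NormedSpace ℝ X] [CompleteSpace X]
    (hBAP : HasBAP X) :
    (∀ s t : ℝ, 0 ≤ s → 0 ≤ t → s + t < 1 / 2 → HasUpperAlpha s X →
      HasUpperAlpha t (X →L[ℝ] ℝ) → IsKConvex X) ∧
    (∀ q r : ℝ, HasCotype q X → HasCotype r (X →L[ℝ] ℝ) →
      ((HasPropertyAlpha X ∨ HasPropertyAlpha (X →L[ℝ] ℝ)) ∨
        (∃ s : ℝ, 0 ≤ s ∧ s < 1 / r ∧ HasUpperAlpha s X) ∨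
        (∃ t : ℝ, 0 ≤ t ∧ t < 1 / q ∧ HasUpperAlpha t (X →L[ℝ] ℝ))) → IsKConvex X) ∧
    (∀ q : ℝ, HasCotype q X → HasUpperAlpha (1 / 2 - 1 / q) X) ∧
    (∀ r : ℝ, HasCotype r (X →L[ℝ] ℝ) → HasUpperAlpha (1 / 2 - 1 / r) (X →L[ℝ] ℝ)) ∧
    (HasPropertyAlpha X → HasUpperAlpha 0 X) := by
  have key : ∀ s t : ℝ, 0 ≤ s → 0 ≤ t → s + t < 1 / 2 → HasUpperAlpha s X →
      HasUpperAlpha t (X →L[ℝ] ℝ) → IsKConvex X := fun _ _ hs ht hst h h' =>
    kconvex_of_upperAlpha hs ht hst hBAP h h'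
  refine ⟨key, ?_, fun q h => H1.upperAlpha_of_cotype h, fun r h => H1.upperAlpha_of_cotype h,
    fun h => H1.upperAlpha_of_alpha h⟩
  intro q r hq hr h
  have hq2 : 2 ≤ q := hq.1
  have hr2 : 2 ≤ r := hr.1
  have hq0 : 0 < 1 / q := by positivity
  have hr0 : 0 < 1 / r := by positivity
  have hq1 : 1 / q ≤ 1 / 2 := one_div_le_one_div_of_le (by norm_num) hq2
  have hr1 : 1 / r ≤ 1 / 2 := one_div_le_one_div_of_le (by norm_num) hr2
  rcases h with (h | h) | ⟨s, hs0, hs1, hs⟩ | ⟨t, ht0, ht1, ht⟩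
  · exact key 0 (1 / 2 - 1 / r) le_rfl (by linarith) (by linarith)
      (H1.upperAlpha_of_alpha h) (H1.upperAlpha_of_cotype hr)
  · exact key (1 / 2 - 1 / q) 0 (by linarith) le_rfl (by linarith)
      (H1.upperAlpha_of_cotype hq) (H1.upperAlpha_of_alpha h)
  · exact key s (1 / 2 - 1 / r) hs0 (by linarith) (by linarith) hs (H1.upperAlpha_of_cotype hr)
  · exact key (1 / 2 - 1 / q) t (by linarith) ht0 (by linarith) (H1.upperAlpha_of_cotype hq) ht

end Vale.Agent.Results.P111.Main
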